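import Vale.Agent.P061.Defs
import Mathlib.Tactic

/-! The thin tree constant is at least four: complete graphs and the bipartition of a tree. -/

namespace Vale.Agent.Results.P061.ConstantAtLeastFour

open Vale.Agent.P061

theorem result :
    ∀ C : ℝ, C < 4 → ∃ K : ℕ, ∀ k : ℕ, K ≤ k → ∃ N : ℕ, 2 ≤ N ∧ ∃ G : SimpleGraph (Fin N),
      KEdgeConnected G k ∧ ∀ T ≤ G, T.IsTree → ¬ Thin G T (C / k) := by
  classical
  intro C hC
  obtain ⟨M, hM⟩ := exists_nat_gt (4 / (4 - C) * 4)
  refine ⟨M + 2, fun k hk => ?_⟩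
  obtain ⟨N, hN, rfl⟩ : ∃ N : ℕ, M + 3 ≤ N ∧ N - 1 = k := ⟨k + 1, by omega, by omega⟩
  refine ⟨N, by omega, ⊤, ?_, ?_⟩
  · intro S hS hne
    have hcard : cutSize (⊤ : SimpleGraph (Fin N)) S = S.card * (N - S.card) := by
      unfold cutSize
      refine (congrArg Finset.card (a₂ := S ×ˢ Sᶜ) ?_).trans (by
        rw [Finset.card_product, Finset.card_compl, Fintype.card_fin])
      ext p
      simp only [Finset.mem_filter, Finset.mem_product, Finset.mem_compl, SimpleGraph.top_adj,
        and_iff_left_iff_imp]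
      exact fun hp h => hp.2 (h ▸ hp.1)
    rw [hcard]
    have h1 := hS.card_pos
    have h2 : S.card < N := by
      have := (Finset.card_lt_iff_ne_univ S).mpr hne
      simpa using this
    obtain ⟨r, hr⟩ : ∃ r, N = S.card + (r + 1) := ⟨N - S.card - 1, by omega⟩
    obtain ⟨s, hs⟩ : ∃ s, S.card = s + 1 := ⟨S.card - 1, by omega⟩
    rw [hs, show N - (s + 1) = r + 1 by omega, show N - 1 = s + r + 1 by omega]
    nlinarith [Nat.zero_le (s * r)]
  · intro T _ hT hthin
    obtain ⟨col⟩ : T.Colorable 2 := hT.isAcyclic.colorable_two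
    let S : Finset (Fin N) := Finset.univ.filter fun v => col v = 0
    have hedge := hT.card_edgeFinset
    rw [Fintype.card_fin] at hedge
    have hT' : T.edgeFinset.card ≤ cutSize T S := by
      have hsub : T.edgeFinset ⊆
          ((S ×ˢ Sᶜ).filter fun p => T.Adj p.1 p.2).image fun p => s(p.1, p.2) := by
        intro e he
        induction e using Sym2.ind with
        | h u v =>
          rw [SimpleGraph.mem_edgeFinset, SimpleGraph.mem_edgeSet] at he
          have hne : col u ≠ col v := col.valid he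
          simp only [Finset.mem_image, Finset.mem_filter, Finset.mem_product, Finset.mem_compl, S,
            Finset.mem_univ, true_and]
          by_cases hu : col u = 0
          · exact ⟨(u, v), ⟨⟨hu, fun h => hne (hu.trans h.symm)⟩, he⟩, rfl⟩
          · have hv : col v = 0 := by omega
            exact ⟨(v, u), ⟨⟨hv, hu⟩, he.symm⟩, Sym2.eq_swap⟩
      exact (Finset.card_le_card hsub).trans Finset.card_image_le
    have hpos : 0 < cutSize T S := by omega
    obtain ⟨⟨a, b⟩, hab⟩ := Finset.card_pos.mp hpos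
    simp only [Finset.mem_filter, Finset.mem_product, Finset.mem_compl] at hab
    have h := hthin S ⟨a, hab.1.1⟩ (fun h => hab.1.2 (h ▸ Finset.mem_univ b))
    have hG : 4 * cutSize (⊤ : SimpleGraph (Fin N)) S ≤ N ^ 2 := by
      have h1 : cutSize (⊤ : SimpleGraph (Fin N)) S ≤ S.card * Sᶜ.card := by
        unfold cutSize
        rw [← Finset.card_product]
        refine Finset.card_le_card ?_
        intro p hp
        simp only [Finset.mem_filter] at hp
        exact hp.1
      have h2 : S.card + Sᶜ.card = N := by rw [Finset.card_add_card_compl, Fintype.card_fin]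
      calc 4 * cutSize (⊤ : SimpleGraph (Fin N)) S ≤ 4 * S.card * Sᶜ.card := by
            rw [mul_assoc]; exact Nat.mul_le_mul_left 4 h1
        _ ≤ (S.card + Sᶜ.card) ^ 2 := four_mul_le_pow_two_add _ _
        _ = N ^ 2 := congrArg (· ^ 2) h2
    have h1 : (N : ℝ) - 1 ≤ cutSize T S := by
      have : N ≤ cutSize T S + 1 := by omega
      have : (N : ℝ) ≤ cutSize T S + 1 := by exact_mod_cast this
      linarith
    have hG' : 4 * (cutSize (⊤ : SimpleGraph (Fin N)) S : ℝ) ≤ (N : ℝ) ^ 2 := by exact_mod_cast hG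
    have hN3 : (3 : ℝ) ≤ N := by exact_mod_cast (show 3 ≤ N by omega)
    rw [Nat.cast_sub (show 1 ≤ N by omega), Nat.cast_one] at h
    have h0 : (0 : ℝ) ≤ cutSize (⊤ : SimpleGraph (Fin N)) S := Nat.cast_nonneg _
    by_cases hC0 : C ≤ 0
    · have : C / ((N : ℝ) - 1) ≤ 0 := div_nonpos_of_nonpos_of_nonneg hC0 (by linarith)
      nlinarith
    push Not at hC0
    have h2 : C / ((N : ℝ) - 1) * cutSize (⊤ : SimpleGraph (Fin N)) S
        ≤ C / ((N : ℝ) - 1) * ((N : ℝ) ^ 2 / 4) :=
      mul_le_mul_of_nonneg_left (by linarith) (div_nonneg hC0.le (by linarith))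
    have h3 : ((N : ℝ) - 1) ≤ C / ((N : ℝ) - 1) * ((N : ℝ) ^ 2 / 4) := le_trans h1 (h.trans h2)
    rw [div_mul_eq_mul_div, le_div_iff₀ (by linarith)] at h3
    have hM' : 4 / (4 - C) * 4 < (N : ℝ) := by
      have : (M : ℝ) ≤ N := by exact_mod_cast (show M ≤ N by omega)
      linarith
    have h4 : 4 * 4 < (N : ℝ) * (4 - C) := by
      have := mul_lt_mul_of_pos_right hM' (show (0 : ℝ) < 4 - C by linarith)
      have e : 4 / (4 - C) * 4 * (4 - C) = 4 * 4 := by
        rw [mul_right_comm, div_mul_cancel₀ _ (by linarith : (4 : ℝ) - C ≠ 0)]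
      linarith
    nlinarith

end Vale.Agent.Results.P061.ConstantAtLeastFour
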