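import Mathlib
import Vale.Agent.P061Dense.Main

/-!
Thin spanning trees in dense multigraphs.
-/

namespace Vale.Agent.Results.P061.DenseThinTrees

open Finset Vale.Agent.P061Dense

open scoped Classical

theorem result :
    ∀ ε : ℝ, 0 < ε → ∃ C : ℝ, ∀ (V : Type) [Fintype V] [DecidableEq V], 2 ≤ Fintype.card V →
      ∀ (μ k : ℕ) (w : V → V → ℕ), 1 ≤ k → (∀ u, w u u = 0) → (∀ u v, w u v = w v u) →
        (∀ u v, w u v ≤ μ) → (∀ u, ε * μ * Fintype.card V ≤ (∑ v, w u v : ℕ)) →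
        (∀ S : Finset V, S.Nonempty → S ≠ univ → k ≤ ∑ u ∈ S, ∑ v ∈ Sᶜ, w u v) →
        ∃ T : SimpleGraph V, T.IsTree ∧ (∀ u v, T.Adj u v → 0 < w u v) ∧
          ∀ S : Finset V, S.Nonempty → S ≠ univ →
            (((S ×ˢ Sᶜ).filter fun p => T.Adj p.1 p.2).card : ℝ)
              ≤ C / k * (∑ u ∈ S, ∑ v ∈ Sᶜ, w u v : ℕ) :=
  fun _ hε => exists_thin_tree hε

end Vale.Agent.Results.P061.DenseThinTrees
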